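import Mathlib

/-!
The start matrices of the stub process (`helper480`'s normalisation, all row sums equal to `1`):
`Z0 vert n d ν i j = ν ([same vertex] - [i = j]) - ((d-1) ν - 1)/(n d)`, `(d-1) ν² = 1`,
`ν = ± 1/√(d-1)`.  With the three orthogonal idempotents `E0, E1, E2` (eigenspaces of `-ν`, `1/ν`, `1`)
all powers, traces and diagonal entries are exact.
-/

set_option linter.unusedSectionVars false

namespace Vale.Agent.P049.TS.Init

open Matrix Finset

variable {ι V : Type*} [Fintype ι] [DecidableEq ι] [Fintype V] [DecidableEq V]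

/-- the matrix `[vert i = vert j]` -/
def Pv (vert : ι → V) : Matrix ι ι ℝ := Matrix.of fun i j => if vert i = vert j then 1 else 0

/-- the all ones matrix -/
def Jm (ι : Type*) : Matrix ι ι ℝ := Matrix.of fun _ _ => 1

/-- the start matrix -/
noncomputable def Z0 (vert : ι → V) (n d : ℕ) (ν : ℝ) : Matrix ι ι ℝ :=
  Matrix.of fun i j => ν * ((if vert i = vert j then 1 else 0) - (if i = j then 1 else 0))
    - ((d - 1) * ν - 1) / (n * d)

/-- projection onto the functions with sum zero on every vertex -/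
noncomputable def E0 (vert : ι → V) (d : ℕ) : Matrix ι ι ℝ := 1 - (1 / (d : ℝ)) • Pv vert

/-- projection onto the vertex functions with sum zero -/
noncomputable def E1 (vert : ι → V) (n d : ℕ) : Matrix ι ι ℝ :=
  (1 / (d : ℝ)) • Pv vert - (1 / ((n : ℝ) * d)) • Jm ι

/-- projection onto the constants -/
noncomputable def E2 (ι : Type*) (n d : ℕ) : Matrix ι ι ℝ := (1 / ((n : ℝ) * d)) • Jm ι

/-- all fibres of `vert` have `d` elements, and there are `n` vertices -/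
structure Fib (vert : ι → V) (n d : ℕ) : Prop where
  fib : ∀ v, (univ.filter fun i => vert i = v).card = d
  cardV : Fintype.card V = n
  n_pos : 0 < n
  d_pos : 0 < d

variable {vert : ι → V} {n d : ℕ}

theorem Fib.card (h : Fib vert n d) : Fintype.card ι = n * d := by
  classical
  have h1 := Finset.card_eq_sum_card_fiberwise (f := vert) (s := (univ : Finset ι))
    (t := (univ : Finset V)) (fun _ _ => Finset.mem_coe.2 (mem_univ _))
  simp only [h.fib, sum_const, card_univ, smul_eq_mul, h.cardV] at h1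
  exact h1

theorem Fib.row (h : Fib vert n d) (i : ι) :
    ∑ j, (if vert i = vert j then (1 : ℝ) else 0) = d := by
  have := h.fib (vert i)
  rw [Finset.sum_boole]
  have e : (univ.filter fun j => vert i = vert j) = univ.filter fun j => vert j = vert i := by
    ext j; simp [eq_comm]
  rw [e, this]

theorem Pv_mul_Pv (h : Fib vert n d) : Pv vert * Pv vert = (d : ℝ) • Pv vert := by
  ext i j
  simp only [Matrix.mul_apply, Pv, Matrix.of_apply, Matrix.smul_apply, smul_eq_mul]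
  by_cases hij : vert i = vert j
  · have : ∀ k, (if vert i = vert k then (1 : ℝ) else 0) * (if vert k = vert j then 1 else 0)
        = if vert i = vert k then 1 else 0 := by
      intro k
      by_cases hk : vert i = vert k
      · simp [hk, ← hij]
      · simp [hk]
    rw [sum_congr rfl fun k _ => this k, h.row i]
    simp [hij]
  · have : ∀ k, (if vert i = vert k then (1 : ℝ) else 0) * (if vert k = vert j then 1 else 0)
        = 0 := by
      intro k
      by_cases hk : vert i = vert k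
      · have : ¬ vert k = vert j := fun hh => hij (hk.trans hh)
        simp [this]
      · simp [hk]
    rw [sum_congr rfl fun k _ => this k]
    simp [hij]

theorem Pv_mul_Jm (h : Fib vert n d) : Pv vert * Jm ι = (d : ℝ) • Jm ι := by
  ext i j
  simp only [Matrix.mul_apply, Pv, Jm, Matrix.of_apply, Matrix.smul_apply, smul_eq_mul, mul_one]
  exact h.row i

theorem Pv_transpose : (Pv vert)ᵀ = Pv vert := by
  ext i j; simp [Pv, Matrix.transpose_apply, eq_comm]

theorem Jm_transpose : (Jm ι)ᵀ = Jm ι := by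
  ext i j; simp [Jm, Matrix.transpose_apply]

theorem Jm_mul_Pv (h : Fib vert n d) : Jm ι * Pv vert = (d : ℝ) • Jm ι := by
  have := congrArg Matrix.transpose (Pv_mul_Jm h)
  simpa [Matrix.transpose_mul, Pv_transpose, Jm_transpose] using this

theorem Jm_mul_Jm (h : Fib vert n d) : Jm ι * Jm ι = ((n : ℝ) * d) • Jm ι := by
  ext i j
  simp [Matrix.mul_apply, Jm, h.card]

theorem Fib.d_ne (h : Fib vert n d) : (d : ℝ) ≠ 0 := by exact_mod_cast h.d_pos.ne'

theorem Fib.n_ne (h : Fib vert n d) : (n : ℝ) ≠ 0 := by exact_mod_cast h.n_pos.ne'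

theorem E2_sq (h : Fib vert n d) : E2 ι n d * E2 ι n d = E2 ι n d := by
  have h1 := h.d_ne
  have h2 := h.n_ne
  simp only [E2, Matrix.smul_mul, Matrix.mul_smul, Jm_mul_Jm h, smul_smul]
  congr 1
  field_simp

theorem E0_sq (h : Fib vert n d) : E0 vert d * E0 vert d = E0 vert d := by
  have h1 := h.d_ne
  have e : (1 / (d : ℝ)) * ((1 / (d : ℝ)) * d) = 1 / d := by field_simp
  simp only [E0, sub_mul, mul_sub, one_mul, mul_one, Matrix.smul_mul, Matrix.mul_smul,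
    Pv_mul_Pv h, smul_smul, e]
  abel

theorem E0_mul_E2 (h : Fib vert n d) : E0 vert d * E2 ι n d = 0 := by
  have h1 := h.d_ne
  have h2 := h.n_ne
  simp only [E0, E2, sub_mul, one_mul, Matrix.smul_mul, Matrix.mul_smul, Pv_mul_Jm h, smul_smul]
  rw [← sub_smul]
  have : 1 / ((n : ℝ) * d) - 1 / ((n : ℝ) * d) * (1 / d * d) = 0 := by field_simp; ring
  rw [this, zero_smul]

theorem E2_mul_E0 (h : Fib vert n d) : E2 ι n d * E0 vert d = 0 := by
  have h1 := h.d_ne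
  have h2 := h.n_ne
  simp only [E0, E2, mul_sub, mul_one, Matrix.smul_mul, Matrix.mul_smul, Jm_mul_Pv h, smul_smul]
  rw [← sub_smul]
  have : 1 / ((n : ℝ) * d) - 1 / (d : ℝ) * (1 / (n * d) * d) = 0 := by field_simp; ring
  rw [this, zero_smul]

theorem E_sum : E0 vert d + E1 vert n d + E2 ι n d = 1 := by
  simp only [E0, E1, E2]; abel

theorem E1_eq : E1 vert n d = 1 - E0 vert d - E2 ι n d := by
  rw [← E_sum (vert := vert) (n := n) (d := d)]; abel

theorem E1_sq (h : Fib vert n d) : E1 vert n d * E1 vert n d = E1 vert n d := by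
  rw [E1_eq]
  simp only [sub_mul, mul_sub, one_mul, mul_one, E0_sq h, E2_sq h, E0_mul_E2 h, E2_mul_E0 h]
  abel

theorem E0_mul_E1 (h : Fib vert n d) : E0 vert d * E1 vert n d = 0 := by
  rw [E1_eq]
  simp only [mul_sub, mul_one, E0_sq h, E0_mul_E2 h]
  abel

theorem E1_mul_E0 (h : Fib vert n d) : E1 vert n d * E0 vert d = 0 := by
  rw [E1_eq]
  simp only [sub_mul, one_mul, E0_sq h, E2_mul_E0 h]
  abel

theorem E1_mul_E2 (h : Fib vert n d) : E1 vert n d * E2 ι n d = 0 := by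
  rw [E1_eq]
  simp only [sub_mul, one_mul, E2_sq h, E0_mul_E2 h]
  abel

theorem E2_mul_E1 (h : Fib vert n d) : E2 ι n d * E1 vert n d = 0 := by
  rw [E1_eq]
  simp only [mul_sub, mul_one, E2_sq h, E2_mul_E0 h]
  abel

/-- the element with eigenvalues `x, y, z` -/
noncomputable def comb (vert : ι → V) (n d : ℕ) (x y z : ℝ) : Matrix ι ι ℝ :=
  x • E0 vert d + y • E1 vert n d + z • E2 ι n d

theorem comb_mul (h : Fib vert n d) (x y z x' y' z' : ℝ) :
    comb vert n d x y z * comb vert n d x' y' z' = comb vert n d (x * x') (y * y') (z * z') := by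
  simp only [comb, add_mul, mul_add, Matrix.smul_mul, Matrix.mul_smul, E0_sq h, E1_sq h, E2_sq h,
    E0_mul_E1 h, E0_mul_E2 h, E1_mul_E0 h, E1_mul_E2 h, E2_mul_E0 h, E2_mul_E1 h, smul_smul,
    smul_zero, add_zero, zero_add, mul_comm x' x, mul_comm y' y, mul_comm z' z]

theorem comb_one : comb vert n d 1 1 1 = 1 := by
  simp only [comb, one_smul, E_sum]

theorem comb_pow (h : Fib vert n d) (x y z : ℝ) (k : ℕ) :
    comb vert n d x y z ^ k = comb vert n d (x ^ k) (y ^ k) (z ^ k) := by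
  induction k with
  | zero => simp [comb_one]
  | succ k ih => rw [pow_succ, ih, comb_mul h, pow_succ, pow_succ, pow_succ]

theorem E0_diag (i : ι) : E0 vert d i i = 1 - 1 / d := by
  simp [E0, Pv]

theorem E1_diag (i : ι) : E1 vert n d i i = 1 / d - 1 / (n * d) := by
  simp [E1, Pv, Jm]

theorem E2_diag (i : ι) : E2 ι n d i i = 1 / ((n : ℝ) * d) := by
  simp [E2, Jm]

theorem comb_diag (x y z : ℝ) (i : ι) : comb vert n d x y z i i =
    x * (1 - 1 / d) + y * (1 / d - 1 / (n * d)) + z * (1 / (n * d)) := by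
  simp only [comb, Matrix.add_apply, Matrix.smul_apply, smul_eq_mul, E0_diag, E1_diag, E2_diag]

theorem comb_trace (h : Fib vert n d) (x y z : ℝ) : (comb vert n d x y z).trace =
    x * (n * (d - 1)) + y * (n - 1) + z := by
  have h1 := h.d_ne
  have h2 := h.n_ne
  simp only [Matrix.trace, Matrix.diag_apply, comb_diag, sum_const, card_univ, h.card,
    nsmul_eq_mul]
  push_cast
  field_simp

theorem Z0_eq (h : Fib vert n d) {ν : ℝ} (hν : ((d : ℝ) - 1) * ν ^ 2 = 1) :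
    Z0 vert n d ν = comb vert n d (-ν) (1 / ν) 1 := by
  have h1 := h.d_ne
  have h2 := h.n_ne
  have hν0 : ν ≠ 0 := by rintro rfl; simp at hν
  have hinv : 1 / ν = ((d : ℝ) - 1) * ν := by
    field_simp; linarith
  ext i j
  simp only [Z0, comb, E0, E1, E2, Pv, Jm, Matrix.of_apply, Matrix.add_apply, Matrix.smul_apply,
    Matrix.sub_apply, smul_eq_mul, Matrix.one_apply, hinv]
  by_cases hv : vert i = vert j <;> by_cases hij : i = j
  · simp only [hij, if_true]; field_simp; ring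
  · simp only [hv, hij, if_true, if_false]; field_simp; ring
  · exact absurd (congrArg vert hij) hv
  · simp only [hv, hij, if_false]; field_simp; ring

theorem Z0_isSymm (ν : ℝ) : (Z0 vert n d ν).IsSymm := by
  ext i j
  simp only [Z0, Matrix.transpose_apply, Matrix.of_apply, eq_comm (a := vert j),
    eq_comm (a := j)]

theorem Z0_pow (h : Fib vert n d) {ν : ℝ} (hν : ((d : ℝ) - 1) * ν ^ 2 = 1) (k : ℕ) :
    Z0 vert n d ν ^ k = comb vert n d ((-ν) ^ k) ((1 / ν) ^ k) 1 := by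
  rw [Z0_eq h hν, comb_pow h, one_pow]

/-- the row sums are `1` -/
theorem Z0_row (h : Fib vert n d) (ν : ℝ) (i : ι) : ∑ j, Z0 vert n d ν i j = 1 := by
  have h1 := h.d_ne
  have h2 := h.n_ne
  simp only [Z0, Matrix.of_apply, sum_sub_distrib, ← mul_sum, h.row i, sum_const, card_univ,
    h.card, nsmul_eq_mul, Finset.sum_ite_eq, mem_univ, if_true]
  push_cast
  field_simp
  ring

theorem trace_Z0_pow (h : Fib vert n d) {ν : ℝ} (hν : ((d : ℝ) - 1) * ν ^ 2 = 1) (k : ℕ) :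
    (Z0 vert n d ν ^ k).trace = (-ν) ^ k * (n * (d - 1)) + (1 / ν) ^ k * (n - 1) + 1 := by
  rw [Z0_pow h hν, comb_trace h]

theorem Z0_pow_diag (h : Fib vert n d) {ν : ℝ} (hν : ((d : ℝ) - 1) * ν ^ 2 = 1) (k : ℕ) (i : ι) :
    (Z0 vert n d ν ^ k) i i =
      (-ν) ^ k * (1 - 1 / d) + (1 / ν) ^ k * (1 / d - 1 / (n * d)) + 1 / (n * d) := by
  rw [Z0_pow h hν, comb_diag, one_mul]

theorem nu_ne {ν : ℝ} (hν : ((d : ℝ) - 1) * ν ^ 2 = 1) : ν ≠ 0 := by
  rintro rfl; simp at hν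

theorem inv_nu {ν : ℝ} (hν : ((d : ℝ) - 1) * ν ^ 2 = 1) : 1 / ν = ((d : ℝ) - 1) * ν := by
  have := nu_ne hν
  field_simp; linarith

/-- `T₁(0) = 1 - 1/ν` -/
theorem trace_Z0 (h : Fib vert n d) {ν : ℝ} (hν : ((d : ℝ) - 1) * ν ^ 2 = 1) :
    (Z0 vert n d ν).trace = 1 - 1 / ν := by
  have := trace_Z0_pow h hν 1
  rw [pow_one, pow_one, pow_one, inv_nu hν] at this
  rw [this, inv_nu hν]; ring

/-- `T₂(0) = N - (d - 2)` -/
theorem trace_Z0_sq (h : Fib vert n d) {ν : ℝ} (hν : ((d : ℝ) - 1) * ν ^ 2 = 1) :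
    (Z0 vert n d ν ^ 2).trace = n * d - (d - 2) := by
  rw [trace_Z0_pow h hν 2, inv_nu hν]
  linear_combination ((n : ℝ) + (d - 1) * (n - 1)) * hν

/-- `T₃(0)` -/
theorem trace_Z0_cube (h : Fib vert n d) {ν : ℝ} (hν : ((d : ℝ) - 1) * ν ^ 2 = 1) :
    (Z0 vert n d ν ^ 3).trace = 1 / ν * ((n - 1) * (d - 1) - n * ν ^ 2) + 1 := by
  rw [trace_Z0_pow h hν 3, inv_nu hν]
  linear_combination (-(n : ℝ) * ν * 0 + ((d : ℝ) - 1) ^ 2 * ν * (n - 1)) * hν

/-- `T₄(0)` -/
theorem trace_Z0_four (h : Fib vert n d) {ν : ℝ} (hν : ((d : ℝ) - 1) * ν ^ 2 = 1) :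
    (Z0 vert n d ν ^ 4).trace = n * ν ^ 2 + (d - 1) ^ 2 * (n - 1) + 1 := by
  rw [trace_Z0_pow h hν 4, inv_nu hν]
  linear_combination ((n : ℝ) * ν ^ 2 + (d - 1) ^ 2 * (n - 1) * ((d - 1) * ν ^ 2 + 1)) * hν

/-- `Z(0)_aa` -/
theorem Z0_diag (h : Fib vert n d) {ν : ℝ} (hν : ((d : ℝ) - 1) * ν ^ 2 = 1) (i : ι) :
    Z0 vert n d ν i i = (1 - 1 / ν) / (n * d) := by
  rw [inv_nu hν]
  simp only [Z0, Matrix.of_apply, if_true]
  ring

/-- `w_a(0) = 1 - (d - 2)/N` -/
theorem Z0_sq_diag (h : Fib vert n d) {ν : ℝ} (hν : ((d : ℝ) - 1) * ν ^ 2 = 1) (i : ι) :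
    (Z0 vert n d ν ^ 2) i i = 1 - (d - 2) / (n * d) := by
  have h1 := h.d_ne
  have h2 := h.n_ne
  rw [Z0_pow_diag h hν 2, inv_nu hν]
  field_simp
  linear_combination ((n : ℝ) + (d - 1) * (n - 1)) * hν

theorem comb_neg_eq (h : Fib vert n d) {ν : ℝ} (hν : ((d : ℝ) - 1) * ν ^ 2 = 1) (k : ℕ) :
    Z0 vert n d (-ν) ^ k = comb vert n d (ν ^ k) ((-(1 / ν)) ^ k) 1 := by
  have hν' : ((d : ℝ) - 1) * (-ν) ^ 2 = 1 := by rw [neg_sq]; exact hν
  rw [Z0_pow h hν', neg_neg, one_div_neg_eq_neg_one_div]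

/-- mixed traces `tr (Z₊^k Z₋^l)` -/
theorem trace_mixed (h : Fib vert n d) {ν : ℝ} (hν : ((d : ℝ) - 1) * ν ^ 2 = 1) (k l : ℕ) :
    (Z0 vert n d ν ^ k * Z0 vert n d (-ν) ^ l).trace =
      (-ν) ^ k * ν ^ l * (n * (d - 1)) + (1 / ν) ^ k * (-(1 / ν)) ^ l * (n - 1) + 1 := by
  rw [Z0_pow h hν, comb_neg_eq h hν, comb_mul h, comb_trace h, one_mul]

/-- `W(0) = tr Z₊² Z₋² = T₄(0)` -/
theorem trace_W (h : Fib vert n d) {ν : ℝ} (hν : ((d : ℝ) - 1) * ν ^ 2 = 1) :
    (Z0 vert n d ν ^ 2 * Z0 vert n d (-ν) ^ 2).trace = n * ν ^ 2 + (d - 1) ^ 2 * (n - 1) + 1 := by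
  rw [← trace_Z0_four h hν, trace_mixed h hν, trace_Z0_pow h hν]
  ring

/-- `tr Z₊ Z₋ = d - N` -/
theorem trace_C (h : Fib vert n d) {ν : ℝ} (hν : ((d : ℝ) - 1) * ν ^ 2 = 1) :
    (Z0 vert n d ν * Z0 vert n d (-ν)).trace = d - n * d := by
  have := trace_mixed h hν 1 1
  simp only [pow_one] at this
  rw [this, inv_nu hν]
  linear_combination (-(n : ℝ) - (d - 1) * (n - 1)) * hν

/-- all powers commute with the other sign -/
theorem Z0_comm (h : Fib vert n d) {ν : ℝ} (hν : ((d : ℝ) - 1) * ν ^ 2 = 1) :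
    Z0 vert n d ν * Z0 vert n d (-ν) = Z0 vert n d (-ν) * Z0 vert n d ν := by
  have h1 := Z0_pow h hν 1
  have h2 := comb_neg_eq h hν 1
  simp only [pow_one] at h1 h2
  rw [h1, h2, comb_mul h, comb_mul h]
  congr 1 <;> ring

/-! ### Bounds (`d ≥ 3`) -/

theorem nu_sq_le (hd : 3 ≤ d) {ν : ℝ} (hν : ((d : ℝ) - 1) * ν ^ 2 = 1) : ν ^ 2 ≤ 1 / 2 := by
  have : (3 : ℝ) ≤ d := by exact_mod_cast hd
  nlinarith [sq_nonneg ν]

/-- `ν (T₃(0) - 1) ≥ (3/2) n - (d - 1)`: the third moments of `Y_ε = ε Z_ε` are positive of order `n` -/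
theorem nu_mul_T3_ge (h : Fib vert n d) (hd : 3 ≤ d) {ν : ℝ} (hν : ((d : ℝ) - 1) * ν ^ 2 = 1) :
    3 / 2 * (n : ℝ) - (d - 1) ≤ ν * ((Z0 vert n d ν ^ 3).trace - 1) := by
  have h3 : (3 : ℝ) ≤ d := by exact_mod_cast hd
  have hν0 := nu_ne hν
  have h2 := nu_sq_le hd hν
  have hn : (0 : ℝ) < n := by exact_mod_cast h.n_pos
  rw [trace_Z0_cube h hν]
  have e : ν * (1 / ν * (((n : ℝ) - 1) * (d - 1) - n * ν ^ 2) + 1 - 1)
      = ((n : ℝ) - 1) * (d - 1) - n * ν ^ 2 := by field_simp; ring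
  rw [e]
  nlinarith

theorem T4_le (h : Fib vert n d) (hd : 3 ≤ d) {ν : ℝ} (hν : ((d : ℝ) - 1) * ν ^ 2 = 1) :
    (Z0 vert n d ν ^ 4).trace ≤ (d : ℝ) ^ 2 * n := by
  have h3 : (3 : ℝ) ≤ d := by exact_mod_cast hd
  have h2 := nu_sq_le hd hν
  have hn : (1 : ℝ) ≤ n := by exact_mod_cast h.n_pos
  rw [trace_Z0_four h hν]
  nlinarith [mul_le_mul_of_nonneg_left h2 (by positivity : (0 : ℝ) ≤ n)]

/-- `V(0) = Σ (w_a - 1)² = (d-2)²/N` -/
theorem V_eq (h : Fib vert n d) {ν : ℝ} (hν : ((d : ℝ) - 1) * ν ^ 2 = 1) :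
    ∑ i : ι, ((Z0 vert n d ν ^ 2) i i - 1) ^ 2 = ((d : ℝ) - 2) ^ 2 / (n * d) := by
  have h1 := h.d_ne
  have h2 := h.n_ne
  simp only [Z0_sq_diag h hν, sum_const, card_univ, h.card, nsmul_eq_mul]
  push_cast
  field_simp
  ring

/-- `S₁(0) = Σ Z_aa² = (1 - 1/ν)²/N` -/
theorem S_eq (h : Fib vert n d) {ν : ℝ} (hν : ((d : ℝ) - 1) * ν ^ 2 = 1) :
    ∑ i : ι, (Z0 vert n d ν i i) ^ 2 = (1 - 1 / ν) ^ 2 / (n * d) := by
  have h1 := h.d_ne
  have h2 := h.n_ne
  have hν0 := nu_ne hν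
  simp only [Z0_diag h hν, sum_const, card_univ, h.card, nsmul_eq_mul]
  push_cast
  field_simp

/-- every entry of the start matrix has absolute value at most `1` (`n ≥ 2`) -/
theorem abs_Z0_le (h : Fib vert n d) (hd : 3 ≤ d) (hn : 2 ≤ n) {ν : ℝ}
    (hν : ((d : ℝ) - 1) * ν ^ 2 = 1) (i j : ι) : |Z0 vert n d ν i j| ≤ 3 / 2 := by
  have h3 : (3 : ℝ) ≤ d := by exact_mod_cast hd
  have h2 := nu_sq_le hd hν
  have hn' : (2 : ℝ) ≤ n := by exact_mod_cast hn
  have hν1 : |ν| ≤ 1 := by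
    have : |ν| ^ 2 ≤ 1 := by rw [sq_abs]; linarith
    nlinarith [abs_nonneg ν]
  have h5 : |ν * ((if vert i = vert j then (1 : ℝ) else 0) - (if i = j then 1 else 0))| ≤ |ν| := by
    rw [abs_mul]
    have : |(if vert i = vert j then (1 : ℝ) else 0) - (if i = j then 1 else 0)| ≤ 1 := by
      by_cases hij : i = j
      · simp [hij]
      · by_cases hv : vert i = vert j <;> simp [hij, hv]
    nlinarith [abs_nonneg ν]
  have h6 : |((d : ℝ) - 1) * ν - 1| ≤ d := by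
    have : |((d : ℝ) - 1) * ν| ≤ d - 1 := by
      rw [abs_mul, abs_of_nonneg (by linarith : (0 : ℝ) ≤ d - 1)]
      nlinarith
    calc |((d : ℝ) - 1) * ν - 1| ≤ |((d : ℝ) - 1) * ν| + |(1 : ℝ)| := abs_sub _ _
      _ ≤ d := by rw [abs_one]; linarith
  have h7 : |(((d : ℝ) - 1) * ν - 1) / (n * d)| ≤ 1 / 2 := by
    rw [abs_div, abs_of_pos (by positivity : (0 : ℝ) < n * d), div_le_iff₀ (by positivity)]
    nlinarith
  unfold Z0
  rw [Matrix.of_apply]
  refine (abs_sub _ _).trans ?_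
  linarith

end Vale.Agent.P049.TS.Init
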