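import Vale.Agent.P049.TS.Shell.Join4
import Vale.Agent.P049.TS.Alg.RSt
import Vale.Agent.P049.TS.Init.Start

/-!
The start of the process in the shared state `RSt`, and the exact row sums along every run:
`∑ j, Z i j = 1` for `i ∈ F`, for both matrices.
-/

set_option linter.unusedSectionVars false

namespace Vale.Agent.P049.TS

open Matrix Finset

variable {ι V : Type*} [Fintype ι] [DecidableEq ι] [Fintype V] [DecidableEq V]
variable {vert : ι → V} {n d : ℕ}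

theorem Z₀_eq_Z0 (h : Init.Fib vert n d) (ν : ℝ) : Z₀ vert d ν = Init.Z0 vert n d ν := by
  ext i j
  simp only [Z₀, Init.Z0, Matrix.of_apply, h.card]
  push_cast
  ring

/-- `μ = 1/√(d-1)` satisfies `(d-1) μ² = 1` -/
theorem mu_sq (hd : 2 ≤ d) : ((d : ℝ) - 1) * ((√((d : ℝ) - 1))⁻¹) ^ 2 = 1 := by
  have h2 : (2 : ℝ) ≤ d := by exact_mod_cast hd
  rw [inv_pow, Real.sq_sqrt (by linarith)]
  exact mul_inv_cancel₀ (by linarith)

theorem neg_mu_sq (hd : 2 ≤ d) : ((d : ℝ) - 1) * (-(√((d : ℝ) - 1))⁻¹) ^ 2 = 1 := by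
  rw [neg_sq]; exact mu_sq hd

theorem start_F : (start vert d).F = (univ : Finset ι) := rfl

theorem start_Zp (h : Init.Fib vert n d) :
    (start vert d).Zp = Init.Z0 vert n d (√((d : ℝ) - 1))⁻¹ := Z₀_eq_Z0 h _

theorem start_Zm (h : Init.Fib vert n d) :
    (start vert d).Zm = Init.Z0 vert n d (-(√((d : ℝ) - 1))⁻¹) := Z₀_eq_Z0 h _

/-- A matrix supported on `F × F` with all row sums `1` on `F`. -/
def RowOne (F : Finset ι) (Z : Matrix ι ι ℝ) : Prop := ∀ i ∈ F, ∑ j, Z i j = 1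

theorem RowOne.upd {F : Finset ι} {Z : Matrix ι ι ℝ} {a b : ι} (hab : a ≠ b) (ha : a ∈ F)
    (hb : b ∈ F) (hZ : Z.IsSymm) (h : al Z a b ≠ 0) (hr : RowOne F Z) :
    RowOne ((F.erase a).erase b) (upd Z a b) := by
  intro i hi
  rw [mem_erase, mem_erase] at hi
  rw [upd_rowsum hab hZ h i hi.2.1 hi.1, hr i hi.2.2, hr a ha, hr b hb]
  ring

theorem Reach.rowOne (hf : Init.Fib vert n d) {k : ℕ} {s : RSt ι}
    (h : Reach vert (start vert d) k s) : RowOne s.F s.Zp ∧ RowOne s.F s.Zm := by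
  induction h with
  | zero =>
    constructor
    · intro i _; rw [start_Zp hf]; exact Init.Z0_row hf _ i
    · intro i _; rw [start_Zm hf]; exact Init.Z0_row hf _ i
  | @succ k s a b c h hc hadm ih =>
    obtain ⟨h1, h2, -, -⟩ := h.base
    exact ⟨ih.1.upd hadm.ne hadm.memA hadm.memB h1 (lt_of_lt_of_le hc hadm.alp).ne',
      ih.2.upd hadm.ne hadm.memA hadm.memB h2 (lt_of_lt_of_le hc hadm.alm).ne'⟩

/-- the indicator vector of a set -/
def ind (F : Finset ι) : ι → ℝ := fun i => if i ∈ F then 1 else 0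

theorem RowOne.mulVec_ind {F : Finset ι} {Z : Matrix ι ι ℝ}
    (hs : ∀ i j, i ∉ F ∨ j ∉ F → Z i j = 0) (hr : RowOne F Z) : Z *ᵥ ind F = ind F := by
  ext i
  have : ∀ j, Z i j * ind F j = Z i j := by
    intro j
    by_cases hj : j ∈ F
    · simp [ind, hj]
    · simp [ind, hj, hs i j (Or.inr hj)]
  simp only [Matrix.mulVec, dotProduct, this]
  by_cases hi : i ∈ F
  · rw [hr i hi]; simp [ind, hi]
  · rw [Finset.sum_eq_zero fun j _ => hs i j (Or.inl hi)]; simp [ind, hi]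

theorem RowOne.pow_mulVec_ind {F : Finset ι} {Z : Matrix ι ι ℝ}
    (hs : ∀ i j, i ∉ F ∨ j ∉ F → Z i j = 0) (hr : RowOne F Z) (k : ℕ) :
    Z ^ k *ᵥ ind F = ind F := by
  induction k with
  | zero => simp
  | succ k ih => rw [pow_succ, ← Matrix.mulVec_mulVec, hr.mulVec_ind hs, ih]

/-- powers (`k ≥ 1`) are supported on `F × F` -/
theorem pow_supp {F : Finset ι} {Z : Matrix ι ι ℝ} (hs : ∀ i j, i ∉ F ∨ j ∉ F → Z i j = 0)
    (k : ℕ) : ∀ i j, i ∉ F ∨ j ∉ F → (Z ^ (k + 1)) i j = 0 := by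
  induction k with
  | zero => simpa using hs
  | succ k ih =>
    intro i j hij
    rcases hij with h | h
    · rw [pow_succ', Matrix.mul_apply]
      exact Finset.sum_eq_zero fun x _ => by rw [hs i x (Or.inl h), zero_mul]
    · rw [pow_succ, Matrix.mul_apply]
      exact Finset.sum_eq_zero fun x _ => by rw [hs x j (Or.inr h), mul_zero]

/-- row sums of all powers are `1` -/
theorem RowOne.sum_pow {F : Finset ι} {Z : Matrix ι ι ℝ}
    (hs : ∀ i j, i ∉ F ∨ j ∉ F → Z i j = 0) (hr : RowOne F Z) (k : ℕ) {i : ι} (hi : i ∈ F) :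
    ∑ j, (Z ^ (k + 1)) i j = 1 := by
  have h := congrFun (hr.pow_mulVec_ind hs (k + 1)) i
  have e : ∀ j, (Z ^ (k + 1)) i j * ind F j = (Z ^ (k + 1)) i j := by
    intro j
    by_cases hj : j ∈ F
    · simp [ind, hj]
    · simp [ind, hj, pow_supp hs k i j (Or.inr hj)]
  simp only [Matrix.mulVec, dotProduct, e] at h
  rw [h]; simp [ind, hi]

/-- `∑_b (Z^k (Z² - 1))_ab = 0` in the form `∑_b (Z^(k+3) - Z^(k+1))_ab = 0` -/
theorem RowOne.sum_pow_sub {F : Finset ι} {Z : Matrix ι ι ℝ}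
    (hs : ∀ i j, i ∉ F ∨ j ∉ F → Z i j = 0) (hr : RowOne F Z) (k l : ℕ) (i : ι) :
    ∑ j, ((Z ^ (k + 1)) i j - (Z ^ (l + 1)) i j) = 0 := by
  rw [sum_sub_distrib]
  by_cases hi : i ∈ F
  · rw [hr.sum_pow hs k hi, hr.sum_pow hs l hi, sub_self]
  · rw [Finset.sum_eq_zero fun j _ => pow_supp hs k i j (Or.inl hi),
      Finset.sum_eq_zero fun j _ => pow_supp hs l i j (Or.inl hi), sub_self]

/-- the total sum of every power is `#F` -/
theorem RowOne.sum_sum_pow {F : Finset ι} {Z : Matrix ι ι ℝ}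
    (hs : ∀ i j, i ∉ F ∨ j ∉ F → Z i j = 0) (hr : RowOne F Z) (k : ℕ) :
    ∑ i, ∑ j, (Z ^ (k + 1)) i j = F.card := by
  have : ∀ i, ∑ j, (Z ^ (k + 1)) i j = if i ∈ F then 1 else 0 := by
    intro i
    by_cases hi : i ∈ F
    · rw [hr.sum_pow hs k hi, if_pos hi]
    · rw [Finset.sum_eq_zero fun j _ => pow_supp hs k i j (Or.inl hi), if_neg hi]
  simp [this]

end Vale.Agent.P049.TS
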